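import Mathlib

namespace Vale.Agent.Results.P047.LevelOneBelowDegree

open Finset

/-- The Fourier coefficient of `f` at `S`, where the cube `{-1,1}^n` is modelled as
`Fin n → ℤˣ` (the units of the integers are exactly `1` and `-1`):
the average over the cube of `f x * ∏ i ∈ S, x i`. -/
noncomputable def fourier {n : ℕ} (f : (Fin n → ℤˣ) → ℝ) (S : Finset (Fin n)) : ℝ :=
  (∑ x : Fin n → ℤˣ, f x * ∏ i ∈ S, ((x i : ℤ) : ℝ)) / 2 ^ n

variable {n : ℕ}

/-- The character of the cube attached to `S`. -/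
noncomputable def chi (S : Finset (Fin n)) (x : Fin n → ℤˣ) : ℝ := ∏ i ∈ S, ((x i : ℤ) : ℝ)

theorem fourier_eq (f : (Fin n → ℤˣ) → ℝ) (S : Finset (Fin n)) :
    fourier f S = (∑ x : Fin n → ℤˣ, f x * chi S x) / 2 ^ n := rfl

theorem unit_sq (u : ℤˣ) : ((u : ℤ) : ℝ) * ((u : ℤ) : ℝ) = 1 := by
  rcases Int.units_eq_one_or u with h | h <;> simp [h]

theorem unit_abs (u : ℤˣ) : |((u : ℤ) : ℝ)| = 1 := by
  rcases Int.units_eq_one_or u with h | h <;> simp [h]

theorem chi_sq (S : Finset (Fin n)) (x : Fin n → ℤˣ) : chi S x * chi S x = 1 := by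
  unfold chi
  rw [← Finset.prod_mul_distrib]
  exact Finset.prod_eq_one (fun i _ => unit_sq _)

theorem chi_abs (S : Finset (Fin n)) (x : Fin n → ℤˣ) : |chi S x| = 1 := by
  unfold chi
  rw [Finset.abs_prod]
  exact Finset.prod_eq_one (fun i _ => unit_abs _)

/-- Dual orthogonality of the characters. -/
theorem sum_chi_mul (x y : Fin n → ℤˣ) :
    ∑ S : Finset (Fin n), chi S x * chi S y = if x = y then (2 : ℝ) ^ n else 0 := by
  have h1 : ∑ S : Finset (Fin n), chi S x * chi S y
      = ∏ i : Fin n, (1 + ((x i : ℤ) : ℝ) * ((y i : ℤ) : ℝ)) := by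
    rw [Finset.prod_one_add, Finset.powerset_univ]
    refine Finset.sum_congr rfl (fun S _ => ?_)
    unfold chi
    rw [Finset.prod_mul_distrib]
  rw [h1]
  split_ifs with h
  · subst h
    have : ∀ i : Fin n, (1 + ((x i : ℤ) : ℝ) * ((x i : ℤ) : ℝ)) = 2 := by
      intro i
      rw [unit_sq]
      norm_num
    simp [this]
  · obtain ⟨i, hi⟩ := Function.ne_iff.mp h
    apply Finset.prod_eq_zero (Finset.mem_univ i)
    rcases Int.units_eq_one_or (x i) with hx | hx <;>
      rcases Int.units_eq_one_or (y i) with hy | hy <;> simp_all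

/-- Fourier inversion. -/
theorem inversion (g : (Fin n → ℤˣ) → ℝ) (x : Fin n → ℤˣ) :
    g x = ∑ S : Finset (Fin n), fourier g S * chi S x := by
  have h2 : (2 : ℝ) ^ n ≠ 0 := by positivity
  have : ∀ S : Finset (Fin n), fourier g S * chi S x
      = (∑ y : Fin n → ℤˣ, g y * (chi S y * chi S x)) / 2 ^ n := by
    intro S
    rw [fourier_eq, div_mul_eq_mul_div, Finset.sum_mul]
    congr 1
    refine Finset.sum_congr rfl (fun y _ => ?_)
    ring
  simp_rw [this]
  rw [← Finset.sum_div, Finset.sum_comm]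
  simp_rw [← Finset.mul_sum, sum_chi_mul]
  simp [h2]

/-- Parseval. -/
theorem parseval (g : (Fin n → ℤˣ) → ℝ) :
    ∑ S : Finset (Fin n), fourier g S ^ 2 = (∑ x : Fin n → ℤˣ, g x ^ 2) / 2 ^ n := by
  have h2 : (2 : ℝ) ^ n ≠ 0 := by positivity
  have : ∀ S : Finset (Fin n), fourier g S ^ 2
      = (∑ x : Fin n → ℤˣ, ∑ y : Fin n → ℤˣ, g x * g y * (chi S x * chi S y)) / (2 ^ n) ^ 2 := by
    intro S
    rw [fourier_eq, div_pow, sq, Finset.sum_mul_sum]
    congr 1
    refine Finset.sum_congr rfl (fun x _ => Finset.sum_congr rfl (fun y _ => ?_))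
    ring
  simp_rw [this]
  rw [← Finset.sum_div, Finset.sum_comm]
  have h3 : ∀ x : Fin n → ℤˣ, ∑ S : Finset (Fin n), ∑ y : Fin n → ℤˣ,
      g x * g y * (chi S x * chi S y) = g x ^ 2 * 2 ^ n := by
    intro x
    rw [Finset.sum_comm]
    simp_rw [← Finset.mul_sum, sum_chi_mul]
    simp
    ring
  simp_rw [h3]
  rw [← Finset.sum_mul]
  field_simp


/-- Flipping the `i`-th coordinate. -/
def flip (i : Fin n) (x : Fin n → ℤˣ) : Fin n → ℤˣ := Function.update x i (-(x i))

theorem flip_flip (i : Fin n) (x : Fin n → ℤˣ) : flip i (flip i x) = x := by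
  unfold flip
  simp

/-- The coordinate flip as a permutation of the cube. -/
def flipPerm (i : Fin n) : Equiv.Perm (Fin n → ℤˣ) :=
  Function.Involutive.toPerm (flip i) (flip_flip i)

theorem chi_flip (i : Fin n) (S : Finset (Fin n)) (x : Fin n → ℤˣ) :
    chi S (flip i x) = if i ∈ S then - chi S x else chi S x := by
  unfold chi flip
  split_ifs with h
  · have e : ∀ j : Fin n, (((Function.update x i (-(x i)) j : ℤˣ) : ℤ) : ℝ)
        = Function.update (fun k => (((x k : ℤˣ) : ℤ) : ℝ)) i (-(((x i : ℤˣ) : ℤ) : ℝ)) j := by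
      intro j
      by_cases hj : j = i
      · subst hj
        simp
      · simp [Function.update_of_ne hj]
    simp_rw [e]
    rw [Finset.prod_update_of_mem h, ← Finset.mul_prod_erase S _ h, Finset.sdiff_singleton_eq_erase]
    ring
  · refine Finset.prod_congr rfl (fun j hj => ?_)
    have : j ≠ i := fun e => h (e ▸ hj)
    rw [Function.update_of_ne this]

theorem fourier_comp_flip (i : Fin n) (g : (Fin n → ℤˣ) → ℝ) (S : Finset (Fin n)) :
    fourier (fun x => g (flip i x)) S = if i ∈ S then - fourier g S else fourier g S := by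
  rw [fourier_eq, fourier_eq]
  have h1 : ∑ x : Fin n → ℤˣ, g (flip i x) * chi S x
      = ∑ x : Fin n → ℤˣ, g (flip i x) * (if i ∈ S then - chi S (flip i x) else chi S (flip i x)) := by
    refine Finset.sum_congr rfl (fun x _ => ?_)
    rw [chi_flip]
    split_ifs <;> simp
  have h2 : ∑ x : Fin n → ℤˣ, g (flip i x) * (if i ∈ S then - chi S (flip i x) else chi S (flip i x))
      = ∑ x : Fin n → ℤˣ, g x * (if i ∈ S then - chi S x else chi S x) :=
    Equiv.sum_comp (flipPerm i) (fun x => g x * (if i ∈ S then - chi S x else chi S x))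
  rw [h1, h2]
  split_ifs with h
  · simp [Finset.sum_neg_distrib, neg_div]
  · rfl

theorem fourier_sub (a b : (Fin n → ℤˣ) → ℝ) (S : Finset (Fin n)) :
    fourier (fun x => a x - b x) S = fourier a S - fourier b S := by
  simp only [fourier_eq, sub_mul, Finset.sum_sub_distrib, sub_div]

theorem fourier_div_two (a : (Fin n → ℤˣ) → ℝ) (S : Finset (Fin n)) :
    fourier (fun x => a x / 2) S = fourier a S / 2 := by
  simp only [fourier_eq, div_mul_eq_mul_div, ← Finset.sum_div]
  ring

theorem coord_mul_chi (i : Fin n) (T : Finset (Fin n)) (x : Fin n → ℤˣ) :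
    ((x i : ℤ) : ℝ) * chi T x = chi (if i ∈ T then T.erase i else insert i T) x := by
  unfold chi
  split_ifs with h
  · rw [← Finset.mul_prod_erase T _ h, ← mul_assoc, unit_sq, one_mul]
  · rw [Finset.prod_insert h]

theorem fourier_coord_mul (i : Fin n) (G : (Fin n → ℤˣ) → ℝ) (T : Finset (Fin n)) :
    fourier (fun x => ((x i : ℤ) : ℝ) * G x) T
      = fourier G (if i ∈ T then T.erase i else insert i T) := by
  rw [fourier_eq, fourier_eq]
  congr 1
  refine Finset.sum_congr rfl (fun x _ => ?_)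
  rw [← coord_mul_chi]
  ring

/-- Fourier coefficients of the function `x ↦ x_i * (g x - g (flip i x))`. -/
theorem fourier_der (i : Fin n) (g : (Fin n → ℤˣ) → ℝ) (T : Finset (Fin n)) :
    fourier (fun x => ((x i : ℤ) : ℝ) * (g x - g (flip i x))) T
      = if i ∈ T then 0 else 2 * fourier g (insert i T) := by
  rw [fourier_coord_mul, fourier_sub, fourier_comp_flip]
  split_ifs with h h' h'
  · exact absurd h' (Finset.notMem_erase i T)
  · ring
  · ring
  · exact absurd (Finset.mem_insert_self i T) h'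


/-- The integers, as a subring of the reals. -/
def ZR : Subring ℝ := (Int.castRingHom ℝ).range

theorem two_mem : (2 : ℝ) ∈ ZR := ⟨2, by simp⟩

theorem coord_mem (u : ℤˣ) : ((u : ℤ) : ℝ) ∈ ZR := ⟨(u : ℤ), rfl⟩

theorem chi_mem (S : Finset (Fin n)) (x : Fin n → ℤˣ) : chi S x ∈ ZR := by
  unfold chi
  exact Subring.prod_mem _ (fun i _ => coord_mem _)

/-- Granularity: an integer-valued function of degree at most `k` has all its Fourier
coefficients in `2 ^ (-k) ℤ`. -/
theorem gran : ∀ (k : ℕ) (g : (Fin n → ℤˣ) → ℝ), (∀ x, g x ∈ ZR) →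
    (∀ S : Finset (Fin n), k < S.card → fourier g S = 0) →
    ∀ S : Finset (Fin n), 2 ^ k * fourier g S ∈ ZR := by
  intro k
  induction k with
  | zero =>
    intro g hg hdeg S
    by_cases hS : S = ∅
    · subst hS
      have hinv := inversion g (fun _ => 1)
      rw [Finset.sum_eq_single ∅] at hinv
      · have h1 : chi (∅ : Finset (Fin n)) (fun _ => 1) = 1 := by simp [chi]
        rw [h1, mul_one] at hinv
        rw [← hinv]
        simpa using hg _
      · intro T _ hT
        rw [hdeg T (Finset.card_pos.mpr (Finset.nonempty_iff_ne_empty.mpr hT)), zero_mul]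
      · intro h
        exact absurd (Finset.mem_univ _) h
    · rw [hdeg S (Finset.card_pos.mpr (Finset.nonempty_iff_ne_empty.mpr hS))]
      simp [ZR.zero_mem]
  | succ k ih =>
    intro g hg hdeg
    have hne : ∀ S : Finset (Fin n), S.Nonempty → 2 ^ (k + 1) * fourier g S ∈ ZR := by
      rintro S ⟨i, hi⟩
      have hint : ∀ x, ((x i : ℤ) : ℝ) * (g x - g (flip i x)) ∈ ZR :=
        fun x => ZR.mul_mem (coord_mem _) (ZR.sub_mem (hg _) (hg _))
      have hdeg' : ∀ T : Finset (Fin n), k < T.card →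
          fourier (fun x => ((x i : ℤ) : ℝ) * (g x - g (flip i x))) T = 0 := by
        intro T hT
        rw [fourier_der]
        split_ifs with hiT
        · rfl
        · rw [hdeg (insert i T) (by rw [Finset.card_insert_of_notMem hiT]; omega)]
          ring
      have key := ih _ hint hdeg' (S.erase i)
      rw [fourier_der, if_neg (Finset.notMem_erase i S), Finset.insert_erase hi] at key
      have e : (2 : ℝ) ^ (k + 1) * fourier g S = 2 ^ k * (2 * fourier g S) := by ring
      rw [e]
      exact key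
    intro S
    by_cases hS : S = ∅
    · subst hS
      have hinv := inversion g (fun _ => 1)
      rw [← Finset.add_sum_erase Finset.univ _ (Finset.mem_univ ∅)] at hinv
      have h1 : chi (∅ : Finset (Fin n)) (fun _ => 1) = 1 := by simp [chi]
      rw [h1, mul_one] at hinv
      have e : (2 : ℝ) ^ (k + 1) * fourier g ∅ = 2 ^ (k + 1) * g (fun _ => 1)
          - ∑ T ∈ Finset.univ.erase (∅ : Finset (Fin n)),
              (2 ^ (k + 1) * fourier g T) * chi T (fun _ => 1) := by
        rw [hinv, mul_add, Finset.mul_sum]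
        simp only [mul_assoc]
        ring
      rw [e]
      refine ZR.sub_mem (ZR.mul_mem (ZR.pow_mem two_mem _) (hg _))
        (ZR.sum_mem (fun T hT => ZR.mul_mem (hne T ?_) (chi_mem _ _)))
      exact Finset.nonempty_iff_ne_empty.mpr (Finset.ne_of_mem_erase hT)
    · exact hne S (Finset.nonempty_iff_ne_empty.mpr hS)

/-- Each level-one coefficient of a Boolean function is at most the influence. -/
theorem abs_fourier_singleton_le (f : (Fin n → ℤˣ) → ℝ) (hf : ∀ x, f x = 1 ∨ f x = -1)
    (i : Fin n) :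
    |fourier f {i}| ≤ ∑ S : Finset (Fin n), if i ∈ S then fourier f S ^ 2 else 0 := by
  have hDhat : ∀ S : Finset (Fin n), fourier (fun x => (f x - f (flip i x)) / 2) S
      = if i ∈ S then fourier f S else 0 := by
    intro S
    rw [fourier_div_two, fourier_sub, fourier_comp_flip]
    split_ifs <;> ring
  have hDval : ∀ x, (f x - f (flip i x)) / 2 = 0 ∨ (f x - f (flip i x)) / 2 = 1
      ∨ (f x - f (flip i x)) / 2 = -1 := by
    intro x
    rcases hf x with h1 | h1 <;> rcases hf (flip i x) with h2 | h2 <;> rw [h1, h2] <;> norm_num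
  have hpar := parseval (fun x => (f x - f (flip i x)) / 2)
  have h1 : fourier f {i} = fourier (fun x => (f x - f (flip i x)) / 2) {i} := by
    rw [hDhat]
    simp
  have h2 : |fourier (fun x => (f x - f (flip i x)) / 2) {i}|
      ≤ (∑ x : Fin n → ℤˣ, ((f x - f (flip i x)) / 2) ^ 2) / 2 ^ n := by
    rw [fourier_eq, abs_div, abs_of_pos (by positivity : (0 : ℝ) < 2 ^ n)]
    apply div_le_div_of_nonneg_right _ (by positivity)
    refine (Finset.abs_sum_le_sum_abs _ _).trans (Finset.sum_le_sum (fun x _ => ?_))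
    rw [abs_mul, chi_abs, mul_one]
    rcases hDval x with h | h | h <;> rw [h] <;> norm_num
  rw [h1]
  refine h2.trans (le_of_eq ?_)
  rw [← hpar]
  refine Finset.sum_congr rfl (fun S _ => ?_)
  rw [hDhat]
  split_ifs <;> simp

/-- Granularity of the level-one coefficients of a Boolean function of degree at most `d`. -/
theorem singleton_gran (d : ℕ) (hd : 1 ≤ d) (f : (Fin n → ℤˣ) → ℝ)
    (hf : ∀ x, f x = 1 ∨ f x = -1)
    (hdeg : ∀ S : Finset (Fin n), d < S.card → fourier f S = 0) (i : Fin n) :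
    2 ^ (d - 1) * fourier f {i} ∈ ZR := by
  have hhat : ∀ T : Finset (Fin n),
      fourier (fun x => ((x i : ℤ) : ℝ) * (f x - f (flip i x)) / 2) T
        = if i ∈ T then 0 else fourier f (insert i T) := by
    intro T
    rw [fourier_div_two, fourier_der]
    split_ifs <;> ring
  have hint : ∀ x, ((x i : ℤ) : ℝ) * (f x - f (flip i x)) / 2 ∈ ZR := by
    intro x
    have hv : ((x i : ℤ) : ℝ) * (f x - f (flip i x)) / 2 = 0
        ∨ ((x i : ℤ) : ℝ) * (f x - f (flip i x)) / 2 = 1
        ∨ ((x i : ℤ) : ℝ) * (f x - f (flip i x)) / 2 = -1 := by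
      rcases Int.units_eq_one_or (x i) with h0 | h0 <;> rcases hf x with h1 | h1 <;>
        rcases hf (flip i x) with h2 | h2 <;> rw [h0, h1, h2] <;> norm_num
    rcases hv with h | h | h <;> rw [h]
    · exact ZR.zero_mem
    · exact ZR.one_mem
    · exact ZR.neg_mem ZR.one_mem
  have hdeg' : ∀ T : Finset (Fin n), d - 1 < T.card →
      fourier (fun x => ((x i : ℤ) : ℝ) * (f x - f (flip i x)) / 2) T = 0 := by
    intro T hT
    rw [hhat]
    split_ifs with hiT
    · rfl
    · exact hdeg (insert i T) (by rw [Finset.card_insert_of_notMem hiT]; omega)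
  have key := gran (d - 1) _ hint hdeg' ∅
  rw [hhat, if_neg (Finset.notMem_empty i)] at key
  simpa using key

theorem abs_le_of_gran (c t : ℝ) (hc : 0 < c) (h : c * t ∈ ZR) : |t| ≤ c * t ^ 2 := by
  obtain ⟨m, hm⟩ := h
  have hm' : (m : ℝ) = c * t := by simpa using hm
  by_cases h0 : m = 0
  · have : t = 0 := by
      have : c * t = 0 := by rw [← hm', h0]; simp
      rcases mul_eq_zero.mp this with h | h
      · exact absurd h hc.ne'
      · exact h
    rw [this]
    simp
  · have h1 : (1 : ℝ) ≤ |(m : ℝ)| := by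
      have : (1 : ℤ) ≤ |m| := Int.one_le_abs h0
      exact_mod_cast this
    rw [hm', abs_mul, abs_of_pos hc] at h1
    have h2 : |t| * 1 ≤ |t| * (c * |t|) := mul_le_mul_of_nonneg_left h1 (abs_nonneg t)
    have h3 : |t| * (c * |t|) = c * t ^ 2 := by
      rw [← sq_abs t]
      ring
    linarith

theorem result (n d : ℕ) (hd : 1 ≤ d) (f : (Fin n → ℤˣ) → ℝ)
    (hf : ∀ x, f x = 1 ∨ f x = -1)
    (hdeg : ∀ S : Finset (Fin n), d < S.card → fourier f S = 0) :
    ∑ i : Fin n, fourier f {i} ≤ (d : ℝ) * 2 ^ (d - 1) / (2 ^ (d - 1) + (d : ℝ) - 1) ∧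
    ∑ i : Fin n, |fourier f {i}| ≤ (d : ℝ) * 2 ^ (d - 1) / (2 ^ (d - 1) + (d : ℝ) - 1) := by
  have hd1 : (1 : ℝ) ≤ (d : ℝ) := by exact_mod_cast hd
  have hc : (0 : ℝ) < 2 ^ (d - 1) := by positivity
  -- Parseval for f
  have hpar : ∑ S : Finset (Fin n), fourier f S ^ 2 = 1 := by
    rw [parseval]
    have : ∀ x : Fin n → ℤˣ, f x ^ 2 = 1 := by
      intro x
      rcases hf x with h | h <;> rw [h] <;> norm_num
    simp only [this]
    simp
  -- Step 1: the level-one sum is at most the total influence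
  have step1 : ∑ i : Fin n, |fourier f {i}|
      ≤ ∑ S : Finset (Fin n), (S.card : ℝ) * fourier f S ^ 2 := by
    calc ∑ i : Fin n, |fourier f {i}|
        ≤ ∑ i : Fin n, ∑ S : Finset (Fin n), (if i ∈ S then fourier f S ^ 2 else 0) :=
          Finset.sum_le_sum (fun i _ => abs_fourier_singleton_le f hf i)
      _ = ∑ S : Finset (Fin n), ∑ i : Fin n, (if i ∈ S then fourier f S ^ 2 else 0) :=
          Finset.sum_comm
      _ = ∑ S : Finset (Fin n), (S.card : ℝ) * fourier f S ^ 2 := by
          refine Finset.sum_congr rfl (fun S _ => ?_)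
          rw [Finset.sum_ite_mem, Finset.univ_inter, Finset.sum_const, nsmul_eq_mul]
  -- Step 2: the total influence is at most d - (d-1) W1
  have step2 : ((d : ℝ) - 1) * ∑ i : Fin n, fourier f {i} ^ 2
      ≤ (d : ℝ) - ∑ S : Finset (Fin n), (S.card : ℝ) * fourier f S ^ 2 := by
    have e1 : (d : ℝ) - ∑ S : Finset (Fin n), (S.card : ℝ) * fourier f S ^ 2
        = ∑ S : Finset (Fin n), ((d : ℝ) - S.card) * fourier f S ^ 2 := by
      simp only [sub_mul, Finset.sum_sub_distrib, ← Finset.mul_sum, hpar, mul_one]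
    have e2 : ((d : ℝ) - 1) * ∑ i : Fin n, fourier f {i} ^ 2
        = ∑ S ∈ Finset.univ.image (fun i : Fin n => ({i} : Finset (Fin n))),
            ((d : ℝ) - S.card) * fourier f S ^ 2 := by
      rw [Finset.sum_image (fun a _ b _ hab => Finset.singleton_injective hab), Finset.mul_sum]
      refine Finset.sum_congr rfl (fun i _ => ?_)
      simp
    rw [e1, e2]
    apply Finset.sum_le_sum_of_subset_of_nonneg (Finset.subset_univ _)
    intro S _ _
    by_cases hS : d < S.card
    · rw [hdeg S hS]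
      simp
    · have : (S.card : ℝ) ≤ (d : ℝ) := by exact_mod_cast Nat.le_of_not_lt hS
      exact mul_nonneg (by linarith) (sq_nonneg _)
  -- Step 3: granularity
  have step3 : ∑ i : Fin n, |fourier f {i}|
      ≤ 2 ^ (d - 1) * ∑ i : Fin n, fourier f {i} ^ 2 := by
    rw [Finset.mul_sum]
    exact Finset.sum_le_sum
      (fun i _ => abs_le_of_gran _ _ hc (singleton_gran d hd f hf hdeg i))
  -- Step 4: combine
  have hW : 0 ≤ ∑ i : Fin n, fourier f {i} ^ 2 := Finset.sum_nonneg (fun i _ => sq_nonneg _)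
  have hden : (0 : ℝ) < 2 ^ (d - 1) + (d : ℝ) - 1 := by linarith
  have main : ∑ i : Fin n, |fourier f {i}|
      ≤ (d : ℝ) * 2 ^ (d - 1) / (2 ^ (d - 1) + (d : ℝ) - 1) := by
    rw [le_div_iff₀ hden]
    have hA1 : ∑ i : Fin n, |fourier f {i}| ≤ (d : ℝ) - ((d : ℝ) - 1) * ∑ i : Fin n, fourier f {i} ^ 2 := by
      linarith
    have hA2 : ((d : ℝ) - 1) * ∑ i : Fin n, |fourier f {i}|
        ≤ ((d : ℝ) - 1) * (2 ^ (d - 1) * ∑ i : Fin n, fourier f {i} ^ 2) :=
      mul_le_mul_of_nonneg_left step3 (by linarith)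
    have hA3 : (2 : ℝ) ^ (d - 1) * ∑ i : Fin n, |fourier f {i}|
        ≤ 2 ^ (d - 1) * ((d : ℝ) - ((d : ℝ) - 1) * ∑ i : Fin n, fourier f {i} ^ 2) :=
      mul_le_mul_of_nonneg_left hA1 hc.le
    nlinarith
  refine ⟨le_trans (Finset.sum_le_sum (fun i _ => le_abs_self _)) main, main⟩

end Vale.Agent.Results.P047.LevelOneBelowDegree
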