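import Vale.Agent.Helper17.GSStrong

/-!
# P047 (Gopalan-Servedio): a constant-factor improvement of the bound `M(d) ≤ d`

Every Boolean function `f : {-1,1}^n → {-1,1}` of degree at most `d ≥ 2` satisfies
`∑ i, |f^({i})| ≤ (47/50) d`.

The cube is `Fin n → ℤˣ`, and `fourier f S` (file `Vale/Agent/Helper17/GSDefs.lean`) is the
average of `f x * ∏ i ∈ S, x i` over the cube.

Proof idea: `p(t) = ∑ S, f^(S) t^|S|` is the mean of `f` under the product measure with
coordinate mean `t`.  It is a polynomial of degree at most `d`, bounded by `1` on `[-1,1]`, and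
the biased Poincare inequality gives `(1 - t^2) |p'(t)| ≤ d (1 - p(t)^2)`.  Integrating this
differential inequality bounds the odd part `q` of `p` by `(R - 1)/(R + 1)`,
`R = ((1+s)/(1-s))^d`, at the two Chebyshev nodes `±s` nearest to the origin, and a Lagrange
interpolation formula at the Chebyshev extremal nodes then improves Bernstein's bound
`|q'(0)| ≤ d` by a constant factor.
-/

namespace Vale.Agent.Results.P047.LevelOneConstantFactor

open Vale.Agent.Helper17.GS

theorem result :
    ∀ (n d : ℕ) (f : (Fin n → ℤˣ) → ℝ), 2 ≤ d → (∀ x, f x = 1 ∨ f x = -1) →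
      (∀ S : Finset (Fin n), d < S.card → fourier f S = 0) →
      ∑ i : Fin n, |fourier f {i}| ≤ 47 / 50 * (d : ℝ) :=
  fun _ d f hd hf hdeg => level_one_abs_strong f hf d hd hdeg

end Vale.Agent.Results.P047.LevelOneConstantFactor
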