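import Vale.Agent.Helper18.Mono

/-!
# P047: the level-one sum of unate Boolean functions of degree at most 4, 6 and 8

A Boolean function `f : {-1,1}^n → {-1,1}` is unate if each coordinate is either nondecreasing
for `f` at every point of the cube or nonincreasing at every point (monotone functions are the
case where every coordinate is nondecreasing).  For such `f` the level-one sum
`∑ i, |f^({i})|` is at most `3/2` when `deg f ≤ 4`, at most `15/8` when `deg f ≤ 6`, and at most
`45/16` when `deg f ≤ 8`.

Proof: after reorienting coordinates all discrete derivatives of `f` are nonnegative, so the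
polynomial `p(t) = E_{mu_t} f` (mean of `f` under the product measure with coordinate means `t`)
has `p' ≥ 0` on `[-1,1]` and `p(1) - p(-1) ≤ 2`.  Quadrature rules with nonnegative weights
(Simpson for degree 4, five-point Lobatto for degree 8) bound `p'(0) = ∑ i, f^({i})`; for
degree 6 a Hermite rule at the two poles is used together with the local structure of `f`
there (`p''(1) ≤ p'(1) (p'(1) - 1) / 2` and `p'(1) ≤ 12` by the four-point Lobatto rule).
-/

namespace Vale.Agent.Results.P047.UnateLowDegree

open Vale.Agent.Helper18.Cube

theorem result (n : ℕ) (f : (Fin n → ℤˣ) → ℝ) (hf : ∀ x, f x = 1 ∨ f x = -1)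
    (hun : ∀ i : Fin n,
      (∀ x : Fin n → ℤˣ, f (Function.update x i (-1)) ≤ f (Function.update x i 1)) ∨
      (∀ x : Fin n → ℤˣ, f (Function.update x i 1) ≤ f (Function.update x i (-1)))) :
    ((∀ S : Finset (Fin n), 4 < S.card → fourier f S = 0) →
        ∑ i : Fin n, |fourier f {i}| ≤ 3 / 2) ∧
    ((∀ S : Finset (Fin n), 6 < S.card → fourier f S = 0) →
        ∑ i : Fin n, |fourier f {i}| ≤ 15 / 8) ∧
    ((∀ S : Finset (Fin n), 8 < S.card → fourier f S = 0) →
        ∑ i : Fin n, |fourier f {i}| ≤ 45 / 16) :=
  unate_bounds f hf hun

end Vale.Agent.Results.P047.UnateLowDegree
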