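import Vale.Agent.Helper18.Tensor

/-!
# P047: the weak form of the square-root conjecture implies the strong form

If there is a constant `C` with `∑ i, f^({i}) ≤ C * sqrt d` for every Boolean function `f` of
degree at most `d` (the weak form of the Gopalan-Servedio conjecture), then the constant can be
taken to be `1`: every Boolean `f` of degree at most `d` satisfies
`∑ i, |f^({i})| + |f^(∅)| ≤ sqrt (d + 1)`, with `sqrt d` on the right when `d` is odd, and
`∑ i, |f^({i})| ≤ sqrt d` when `f` is balanced.

Proof (tensor power trick).  For balanced Boolean `f, g` the composition of `f` with disjoint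
copies of `g` is balanced and Boolean, has degree at most `deg f * deg g` and level-one sum the
product of those of `f` and `g` (`comp_degree`, `comp_level_one`).  So a balanced `f` of degree at
most `d` with level-one sum `A` gives balanced functions of degree at most `d ^ (2 ^ k)` with
level-one sum `A ^ (2 ^ k)`, and the weak form yields `(A / sqrt d) ^ (2 ^ k) ≤ C` for all `k`,
hence `A ≤ sqrt d`.  A general `f` is made balanced by the oddization
`(x, y) ↦ (ε y) * f ((ε y) x)`, which has degree at most `d + 1` (at most `d` if `d` is odd) and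
level-one sum `∑ i, f^({i}) + ε f^(∅)`; reorienting coordinates gives the absolute values.
-/

namespace Vale.Agent.Results.P047.WeakImpliesStrong

open Vale.Agent.Helper18.Cube

theorem result (C : ℝ)
    (hweak : ∀ (n d : ℕ) (f : (Fin n → ℤˣ) → ℝ), (∀ x, f x = 1 ∨ f x = -1) →
      (∀ S : Finset (Fin n), d < S.card → fourier f S = 0) →
      ∑ i : Fin n, fourier f {i} ≤ C * Real.sqrt d) :
    ∀ (n d : ℕ) (f : (Fin n → ℤˣ) → ℝ), (∀ x, f x = 1 ∨ f x = -1) →
      (∀ S : Finset (Fin n), d < S.card → fourier f S = 0) →
      (∑ i : Fin n, |fourier f {i}| + |fourier f ∅| ≤ Real.sqrt ((d : ℝ) + 1)) ∧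
      (Odd d → ∑ i : Fin n, |fourier f {i}| + |fourier f ∅| ≤ Real.sqrt d) ∧
      (fourier f ∅ = 0 → ∑ i : Fin n, |fourier f {i}| ≤ Real.sqrt d) :=
  fun _ d f hf hdeg => weak_implies_strong C hweak d f hf hdeg

end Vale.Agent.Results.P047.WeakImpliesStrong
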